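import Vale.Agent.P277.H264.Main

/-!
# P277: flips which are nonpositive for a terminal NQC pair terminate
-/

open scoped Manifold ContDiff Topology
open Vale.Agent.P272.K Vale.Agent.P285.H281.FD Set Metric Filter

noncomputable section

namespace Vale.Agent.P277.H264

theorem ev_pos' {x y : ℝ} (h : 0 < x ∨ x = 0 ∧ 0 < y) : ∀ᶠ t : ℝ in 𝓝[>] 0, 0 < t * y + x := by
  rcases h with h | ⟨rfl, h⟩
  · have h1 : Tendsto (fun t : ℝ => t * y + x) (𝓝[>] 0) (𝓝 (0 * y + x)) :=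
      ((tendsto_id.mul_const y).add_const x).mono_left nhdsWithin_le_nhds
    rw [zero_mul, zero_add] at h1
    exact h1.eventually (lt_mem_nhds h)
  · filter_upwards [self_mem_nhdsWithin] with t ht
    have := mul_pos (show (0 : ℝ) < t from ht) h
    linarith

theorem ev_nonneg' {x y : ℝ} (h : 0 < x ∨ x = 0 ∧ 0 ≤ y) : ∀ᶠ t : ℝ in 𝓝[>] 0, 0 ≤ t * y + x := by
  rcases h with h | ⟨rfl, h⟩
  · exact (ev_pos' (Or.inl h)).mono fun t ht => ht.le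
  · filter_upwards [self_mem_nhdsWithin] with t ht
    have := mul_nonneg (show (0 : ℝ) ≤ t from (show (0 : ℝ) < t from ht).le) h
    linarith

theorem no_seq (Y : Type) [TopologicalSpace Y] [T2Space Y] [CompactSpace Y]
    [ChartedSpace (Cm 4) Y] [IsManifold 𝓘(ℂ, Cm 4) ω Y]
    (χ : Chart 4 Y → Cm 4 → Matrix (Fin 4) (Fin 4) ℂ)
    (hχ : IsKahler χ) (k s : ℕ) (M : Fin (k + s) → Bd Y) (hM : ∀ e, IsLB 4 (M e))
    (hnef : ∀ e : Fin k, Nef χ (M (Fin.castAdd s e))) (m : Fin (k + s) → ℕ)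
    (hm : ∀ e : Fin k, 1 ≤ m (Fin.castAdd s e)) (hm0 : ∀ i : Fin s, m (Fin.natAdd k i) = 0)
    (H : Fin s → Type)
    [∀ i, TopologicalSpace (H i)] [∀ i, T2Space (H i)] [∀ i, CompactSpace (H i)]
    [∀ i, ConnectedSpace (H i)] [∀ i, ChartedSpace (Cm 3) (H i)]
    [∀ i, IsManifold 𝓘(ℂ, Cm 3) ω (H i)] (ι : ∀ i, H i → Y)
    (sg : ∀ i : Fin s, (M (Fin.natAdd k i)).ι → Y → ℂ)
    (hbd : ∀ i, HD.IsBd (ι i) (M (Fin.natAdd k i)) (sg i))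
    (hdisj : Pairwise fun i j => Disjoint (range (ι i)) (range (ι j)))
    (W : CSp) (X Z : ℕ → CSp) (r : ℕ) (v : Y → W.pt) (p : W.pt → (X 0).pt) (P : Bd W.pt)
    (G : Fin r → Set Y) (hG : HD.IsRes v p P G) (hne : ∀ i, ¬ range (ι i) ⊆ ⋃ l, G l)
    (f : ∀ j, (X j).pt → (Z j).pt) (f' : ∀ j, (X (j + 1)).pt → (Z j).pt)
    (A : ∀ j, Set (Z j).pt) (L : ∀ j, Fin (k + s) → Bd (X j).pt) (c : ℕ → Fin (k + s) → ℕ)
    (hc : ∀ j e, 1 ≤ c j e) (n : Fin (k + s) → Fin r → ℤ)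
    (hL : ∃ t, HD.IsCmpV (fun y => p (v y)) (L 0)
      (fun e => (((Bd.can 4 Y).pow (m e)).mul (M e)).pow (c 0 e)) G n t)
    (ρ σ : Fin (k + s) → ℝ)
    (hflip : ∀ j, HD.IsFlipR (X j) (Z j) (X (j + 1)) (f j) (f' j) (A j) (L j) (L (j + 1)) (c j)
      (c (j + 1)) ρ)
    (hσ : (∃ μ : ℝ, 0 ≤ μ ∧ HD.IsRTriv (X 0) (L 0) (c 0) fun e => σ e - μ * ρ e) ∨
      ∀ j, HD.IsRSemi (X j) (Z j) (f j) (L j) (c j) (fun e => -σ e) ∧
        HD.IsRSemi (X (j + 1)) (Z j) (f' j) (L (j + 1)) (c (j + 1)) σ)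
    (hsum : ∑ e, σ e * m e = 1) (hpos : ∀ e, 0 < σ e ∨ σ e = 0 ∧ 0 < ρ e)
    (hb : ∀ i : Fin s, σ (Fin.natAdd k i) < 1 ∨
      σ (Fin.natAdd k i) = 1 ∧ ρ (Fin.natAdd k i) < ∑ e, ρ e * m e)
    (ha : ∀ l, 0 < ∑ e, σ e * n e l / c 0 e ∨
      ∑ e, σ e * n e l / c 0 e = 0 ∧ 0 ≤ ∑ e, ρ e * n e l / c 0 e) : False := by
  set q : ℝ := ∑ e, ρ e * m e with hq
  have e0 : ∀ᶠ t : ℝ in 𝓝[>] 0, 0 < t := self_mem_nhdsWithin
  have e1 : ∀ᶠ t : ℝ in 𝓝[>] 0, 0 < t * q + 1 := ev_pos' (Or.inl one_pos)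
  have e2 : ∀ᶠ t : ℝ in 𝓝[>] 0, ∀ e, 0 < t * ρ e + σ e :=
    eventually_all.2 fun e => ev_pos' (hpos e)
  have e3 : ∀ᶠ t : ℝ in 𝓝[>] 0, ∀ i : Fin s,
      0 < t * (q - ρ (Fin.natAdd k i)) + (1 - σ (Fin.natAdd k i)) :=
    eventually_all.2 fun i => ev_pos' ((hb i).imp (fun h => sub_pos.2 h)
      fun h => ⟨by rw [h.1, sub_self], sub_pos.2 h.2⟩)
  have e4 : ∀ᶠ t : ℝ in 𝓝[>] 0, ∀ l,
      0 ≤ t * (∑ e, ρ e * n e l / c 0 e) + ∑ e, σ e * n e l / c 0 e :=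
    eventually_all.2 fun l => ev_nonneg' (ha l)
  obtain ⟨t, ⟨⟨⟨⟨h0, h1⟩, h2⟩, h3⟩, h4⟩⟩ := ((((e0.and e1).and e2).and e3).and e4).exists
  set w : ℝ := (t * q + 1)⁻¹ with hw
  have hw0 : 0 < w := inv_pos.2 h1
  have hw1 : w * (t * q + 1) = 1 := inv_mul_cancel₀ h1.ne'
  set R : Fin (k + s) → ℝ := fun e => (w * t) * ρ e + w * σ e with hR
  have hR' : ∀ e, R e = w * (t * ρ e + σ e) := fun e => by
    simp only [hR]
    ring
  have hRpos : ∀ e, 0 < R e := fun e => by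
    rw [hR']
    exact mul_pos hw0 (h2 e)
  have hRsum : ∑ e, R e * m e = 1 := by
    have h5 : ∑ e, R e * m e = w * (t * (∑ e, ρ e * m e) + ∑ e, σ e * m e) := by
      rw [Finset.mul_sum, ← Finset.sum_add_distrib, Finset.mul_sum]
      refine Finset.sum_congr rfl fun e _ => ?_
      rw [hR']
      ring
    rw [h5, hsum, ← hq, hw1]
  have hRn : ∀ l, ∑ e, R e * n e l / c 0 e =
      w * (t * (∑ e, ρ e * n e l / c 0 e) + ∑ e, σ e * n e l / c 0 e) := by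
    intro l
    rw [Finset.mul_sum, ← Finset.sum_add_distrib, Finset.mul_sum]
    refine Finset.sum_congr rfl fun e _ => ?_
    rw [hR']
    ring
  have hRn0 : ∀ l, 0 ≤ ∑ e, R e * n e l / c 0 e := fun l => by
    rw [hRn]
    exact mul_nonneg hw0.le (h4 l)
  have hRb : ∀ i : Fin s, R (Fin.natAdd k i) < 1 := fun i => by
    rw [hR', ← hw1]
    refine mul_lt_mul_of_pos_left ?_ hw0
    have := h3 i
    linarith
  have hfl := flip_ab hflip (mul_pos hw0 h0) hw0.le (hσ.imp (fun ⟨μ, h5, h6⟩ =>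
    ⟨μ, add_pos_of_pos_of_nonneg (mul_pos hw0 h0) (mul_nonneg hw0.le h5), h6⟩) id)
  have hT : HD.IsRTriv (X 0) (L 0) (c 0)
      fun e => Fin.append (fun _ : Fin k => (0 : ℝ)) (fun _ : Fin s => 0) e - 0 * R e := by
    refine ⟨0, fun a => a.elim0, fun a => a.elim0, fun a => a.elim0, fun e => ?_⟩
    simp only [Finset.univ_eq_empty, Finset.sum_empty, zero_mul, sub_zero]
    refine Fin.addCases (fun e => ?_) (fun i => ?_) e
    · simp [Fin.append_left]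
    · simp [Fin.append_right]
  have hV := HD.stKltX Y χ hχ k s M hM hnef m hm hm0 R hRsum H ι sg hbd hdisj W X Z r v p P G hG
    hne f f' A L c hc n hL hfl (fun _ => 0) (fun _ => le_rfl) 0 0 le_rfl (by norm_num) hT R
    (fun e => by simp) hRpos (fun l => ∑ e, R e * n e l / c 0 e) (fun _ => rfl) hRb
    (fun l => lt_of_lt_of_le (by norm_num) (hRn0 l))
    (fun l l' _ h5 _ => absurd h5 (not_lt.2 (hRn0 l)))
    (fun l i h5 => absurd h5 (not_lt.2 (hRn0 l)))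
  obtain ⟨j, _, h6⟩ := hV.2.1 univ (Or.inl rfl) 0 (Or.inl rfl)
  obtain ⟨_, g, _⟩ := (hfl j).small'.dim
  refine h6 ⟨fun _ => ∅, fun _ _ => g 0 0, fun _ => isOpen_empty, fun _ _ hx => hx.elim, ?_⟩
  rintro x ⟨_, l, h7, _⟩
  exact absurd h7 (not_lt.2 (hRn0 l))

end Vale.Agent.P277.H264
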