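import Vale.Agent.P277.HD.Klt

/-!
# P277: further definitions used by the statement of `LogCalabiYau`
-/

open scoped Manifold ContDiff Topology
open Vale.Agent.P272.K Vale.Agent.P285.H281.FD Set

noncomputable section

namespace Vale.Agent.P277.HD

/-- Locally over `Z` some power `L ^ k`, `k ≥ 1`, is generated by its sections. -/
def RelGen (X Z : CSp) (f : X.pt → Z.pt) (L : Bd X.pt) : Prop :=
  ∀ z, ∃ (V : Set Z.pt) (k N : ℕ) (s : Fin N → L.ι → X.pt → ℂ), IsOpen V ∧ z ∈ V ∧ 1 ≤ k ∧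
    (∀ l, IsSecx X (f ⁻¹' V) (L.pow k) (s l)) ∧ ∀ x i, f x ∈ V → x ∈ L.U i → ∃ l, s l i x ≠ 0

/-- The real divisor `∑ e, θ e • D e` is `f`-semiample, where `L e` is the line bundle defined by
`c e • D e`: it is a nonnegative real combination of integral combinations which have a power which
is generated by its sections locally over `Z`. -/
def IsRSemi {K : ℕ} (X Z : CSp) (f : X.pt → Z.pt) (L : Fin K → Bd X.pt) (c : Fin K → ℕ)
    (θ : Fin K → ℝ) : Prop :=
  ∃ (b : ℕ) (n : Fin b → Fin K → ℤ) (x : Fin b → ℝ), (∀ a, 0 ≤ x a) ∧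
    (∀ a, RelGen X Z f (Bd.lin L (n a))) ∧ ∀ e, θ e = ∑ a, x a * (n a e * c e)

end Vale.Agent.P277.HD
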