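import Vale.Agent.P277.H264.Defs
import Vale.Agent.P277.HD.KltXProof
import Vale.Agent.P277.H29.CY.Fin3

/-!
# P277: arbitrary NQC pairs on compact complex fourfolds with a log Calabi-Yau structure
-/

open scoped Manifold ContDiff Topology
open Vale.Agent.P272.K Vale.Agent.P285.H281.FD Set Metric Filter

noncomputable section

namespace Vale.Agent.P277.H264

open Vale.Agent.P277.H29.CY

theorem IsFlipR.new {k : ℕ} {X Z X' : CSp} {f : X.pt → Z.pt} {f' : X'.pt → Z.pt} {A : Set Z.pt}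
    {L : Fin k → Bd X.pt} {L' : Fin k → Bd X'.pt} {c c' : Fin k → ℕ} {ρ : Fin k → ℝ}
    (h : P277.IsFlipR X Z X' f f' A L L' c c' ρ) : HD.IsFlipR X Z X' f f' A L L' c c' ρ :=
  ⟨h.normal, h.normalZ, h.normal', h.small, h.small', h.ninj, h.ninj', h.lb, h.lb', h.iso, h.ample,
    h.ample'⟩

/-- flips of `D` which are nonpositive for `D'` are flips of `a D + b D'` -/
theorem flip_ab {X Z : ℕ → CSp} {K : ℕ} {f : ∀ j, (X j).pt → (Z j).pt}
    {f' : ∀ j, (X (j + 1)).pt → (Z j).pt} {A : ∀ j, Set (Z j).pt}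
    {L : ∀ j, Fin K → Bd (X j).pt} {c : ℕ → Fin K → ℕ} {ρ σ : Fin K → ℝ}
    (hflip : ∀ j, HD.IsFlipR (X j) (Z j) (X (j + 1)) (f j) (f' j) (A j) (L j) (L (j + 1)) (c j)
      (c (j + 1)) ρ) {a b : ℝ} (ha : 0 < a) (hb : 0 ≤ b)
    (h : (∃ μ : ℝ, 0 < a + b * μ ∧ HD.IsRTriv (X 0) (L 0) (c 0) fun e => σ e - μ * ρ e) ∨
      ∀ j, HD.IsRSemi (X j) (Z j) (f j) (L j) (c j) (fun e => -σ e) ∧
        HD.IsRSemi (X (j + 1)) (Z j) (f' j) (L (j + 1)) (c (j + 1)) σ) (j : ℕ) :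
    HD.IsFlipR (X j) (Z j) (X (j + 1)) (f j) (f' j) (A j) (L j) (L (j + 1)) (c j)
      (c (j + 1)) fun e => a * ρ e + b * σ e := by
  have hfl := fun j => (hflip j).old
  rcases h with ⟨mu, hmu, hσt⟩ | h
  · have htr : ∀ j, (fun e => σ e - mu * ρ e) ∈ RTg (X j) (L j) (c j) := by
      intro j
      induction j with
      | zero => exact IsRTriv.mem (show T3.IsRTriv _ _ _ _ from hσt)
      | succ j ih => exact RTg_trans (hfl j) ih
    have h6 : (fun e => b * (σ e - mu * ρ e)) ∈ RTg (X j) (L j) (c j) :=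
      Submodule.smul_mem _ b (htr j)
    have h7 : (fun e => b * (σ e - mu * ρ e)) ∈ RTg (X (j + 1)) (L (j + 1)) (c (j + 1)) :=
      Submodule.smul_mem _ b (htr (j + 1))
    have h9 := isFlipR_twist (hfl j) (RTg_le h6) (RTg_le h7) hmu
    have h10 : (fun e => a * ρ e + b * σ e) =
        fun e => (a + b * mu) * ρ e + b * (σ e - mu * ρ e) := by
      funext e
      ring
    rw [h10]
    exact IsFlipR.new h9
  · obtain ⟨g1, g2⟩ := h j
    have g3 := (IsRSemi.limGen (hfl j).lb (show T3.IsRSemi _ _ _ _ _ _ from g1)).smul (hfl j).lb hb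
    have g4 := (IsRSemi.limGen (hfl j).lb' (show T3.IsRSemi _ _ _ _ _ _ from g2)).smul
      (hfl j).lb' hb
    have g5 : (fun e => -(b * σ e)) = b • fun e => -σ e := by
      funext e
      simp
    exact IsFlipR.new (isFlipR_semi (hfl j) (θ := fun e => b * σ e) (by rw [g5]; exact g3) g4 ha)

end Vale.Agent.P277.H264
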